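import Vale.Agent.P299.H937.Abp
import Vale.Agent.P299.H835.Iface
import Vale.Agent.P272.K.AMP.H470.Glob
import Vale.Agent.P272.K.AMP.LEX.Local

/-!
# P299, package D0: the uniform oscillation estimate
-/

open scoped Manifold ContDiff ComplexOrder Topology
open Matrix MeasureTheory Metric Filter Set

noncomputable section

namespace Vale.Agent.P299.H937

open Vale.Agent.P272.K Vale.Agent.P272.K.N Vale.Agent.P272.K.AMP

variable {n : ℕ} {X : Type} [TopologicalSpace X] [ChartedSpace (Cm n) X]
  {χ : Chart n X → Cm n → Matrix (Fin n) (Fin n) ℂ}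

theorem exists_consts (hχ : IsHermitian χ) (x : X) : ∃ R : ℝ, 0 < R ∧ ∃ ε : ℝ, 0 < ε ∧
    ∃ T : ℝ, 0 < T ∧ ∃ d : ℝ, 0 < d ∧
    ∀ z ∈ ball (chartAt (Cm n) x x) R, z ∈ (chartAt (Cm n) x).target ∧
      (χ (chartAt (Cm n) x) z - (ε : ℂ) • (1 : Matrix (Fin n) (Fin n) ℂ)).PosSemidef ∧
      (χ (chartAt (Cm n) x) z).det.re ≤ T ∧ d ≤ (χ (chartAt (Cm n) x) z).det.re := by
  set e : Chart n X := chartAt (Cm n) x with he
  have hx : At e x := ⟨chart_mem_atlas (Cm n) x, mem_chart_source (Cm n) x⟩
  have h2 : ContinuousAt (fun z => (χ e z).det.re) (e x) := by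
    have : ContinuousAt (fun z => (χ e z).det) (e x) :=
      (contDiffAt_det (hχ.smooth e x hx)).continuousAt
    exact Complex.continuous_re.continuousAt.comp this
  have hd : 0 < (χ e (e x)).det.re := (Complex.pos_iff.1 (hχ.posDef e x hx).det_pos).1
  obtain ⟨ε, hε, hnear⟩ := posDef_of_near (hχ.posDef e x hx)
  have h1 : ∀ᶠ z in 𝓝 (e x), ∀ i j, ‖χ e z i j - χ e (e x) i j‖ < ε / 2 := by
    rw [Filter.eventually_all]; intro i
    rw [Filter.eventually_all]; intro j
    have h3 : ContinuousAt (fun z => ‖χ e z i j - χ e (e x) i j‖) (e x) :=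
      ((hχ.smooth e x hx i j).continuousAt.sub continuousAt_const).norm
    exact h3.eventually_lt continuousAt_const (by simpa using by positivity)
  have h4 : ∀ᶠ z in 𝓝 (e x), (χ e z).det.re < (χ e (e x)).det.re + 1 :=
    h2.eventually_lt continuousAt_const (by simp)
  have h4' : ∀ᶠ z in 𝓝 (e x), (χ e (e x)).det.re / 2 < (χ e z).det.re :=
    continuousAt_const.eventually_lt h2 (by simpa using by positivity)
  have h5 : ∀ᶠ z in 𝓝 (e x), z ∈ e.target := e.open_target.mem_nhds (e.map_source hx.2)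
  obtain ⟨R, hR, h6⟩ := Metric.eventually_nhds_iff_ball.1 (h1.and (h4.and (h4'.and h5)))
  refine ⟨R, hR, ε / 2, by positivity, (χ e (e x)).det.re + 1, by positivity,
    (χ e (e x)).det.re / 2, by positivity, fun z hz => ?_⟩
  obtain ⟨a1, a2, a3, a4⟩ := h6 z hz
  refine ⟨a4, ?_, a2.le, a3.le⟩
  refine (hnear _ ?_ fun i j => ?_).posSemidef
  · refine (hχ.posDef_target hx.1 a4).1.sub ?_
    rw [Matrix.IsHermitian, conjTranspose_smul, conjTranspose_one]
    simp
  · rw [Matrix.sub_apply, Matrix.smul_apply, smul_eq_mul]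
    have b1 : ‖((ε / 2 : ℝ) : ℂ) * (1 : Matrix (Fin n) (Fin n) ℂ) i j‖ ≤ ε / 2 := by
      rw [norm_mul, Complex.norm_real, Real.norm_of_nonneg (by positivity), Matrix.one_apply]
      split_ifs <;> simp <;> positivity
    calc ‖χ e z i j - ((ε / 2 : ℝ) : ℂ) * (1 : Matrix (Fin n) (Fin n) ℂ) i j - χ e (e x) i j‖
        = ‖(χ e z i j - χ e (e x) i j) - ((ε / 2 : ℝ) : ℂ) *
          (1 : Matrix (Fin n) (Fin n) ℂ) i j‖ := by ring_nf
      _ ≤ _ := norm_sub_le _ _
      _ ≤ ε / 2 + ε / 2 := add_le_add (a1 i j).le b1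
      _ = ε := by ring

/-- integrals over `X` of nonnegative densities dominate local ones -/
theorem le_intX [T2Space X] [CompactSpace X] [IsManifold 𝓘(ℂ, Cm n) ω X]
    {D : Chart n X → Cm n → ℝ} (hD : INT.IsDensity D) (hD0 : ∀ e x, At e x → 0 ≤ D e (e x))
    {e : Chart n X} (he : e ∈ atlas (Cm n) X) {a : Cm n} {s s' : ℝ} (hs : s < s') 
    (hb : closedBall a s' ⊆ e.target) {S : Set (Cm n)} (hS : MeasurableSet S)
    (hSb : S ⊆ closedBall a s) : ∫ z in S, D e z ≤ INT.intX D := by
  have hKc : ∀ t, t ≤ s' → IsClosed (e.symm '' closedBall a t) := fun t ht =>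
    ((isCompact_closedBall a t).image_of_continuousOn (e.continuousOn_symm.mono
      ((closedBall_subset_closedBall ht).trans hb))).isClosed
  have hUo : IsOpen (e.symm '' ball a s') :=
    e.symm.isOpen_image_of_subset_source isOpen_ball (ball_subset_closedBall.trans hb)
  have hdisj : Disjoint (e.symm '' ball a s')ᶜ (e.symm '' closedBall a s) := by
    rw [disjoint_compl_left_iff_subset]
    exact image_mono (closedBall_subset_ball hs)
  obtain ⟨f, hf0, hf1, hf⟩ := exists_continuous_zero_one_of_isClosed hUo.isClosed_compl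
    (hKc s hs.le) hdisj
  set D' : Chart n X → Cm n → ℝ := fun e z => f (e.symm z) * D e z with hD'
  have hdens : INT.IsDensity D' := hD.smul f.continuous
  have hsup : ∀ e' x, At e' x → x ∉ e.symm '' closedBall a s' → D' e' (e' x) = 0 := by
    intro e' x hx hxK
    have : f x = 0 := hf0 (fun h => hxK (image_mono ball_subset_closedBall h))
    simp only [hD']
    rw [e'.left_inv hx.2, this, zero_mul]
  have hKe : e.symm '' closedBall a s' ⊆ e.source := by
    rintro _ ⟨z, hz, rfl⟩
    exact e.map_target (hb hz)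
  have h1 := INT.intX_of_support hdens he (hKc s' le_rfl) hKe hsup
  have h2 : INT.intX D' ≤ INT.intX D := by
    refine INT.intX_mono hdens hD fun e' x hx => ?_
    have := hD0 e' x hx
    have := (hf (e'.symm (e' x))).2
    simp only [hD']
    exact mul_le_of_le_one_left (hD0 e' x hx) this
  refine le_trans ?_ h2
  rw [h1]
  have hSt : S ⊆ e.target := hSb.trans ((closedBall_subset_closedBall hs.le).trans hb)
  have h3 : ∫ z in S, D e z = ∫ z in S, D' e z := by
    refine setIntegral_congr_fun hS fun z hz => ?_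
    have : f (e.symm z) = 1 := hf1 ⟨z, hSb hz, rfl⟩
    simp only [hD', this, one_mul]
  rw [h3]
  refine setIntegral_mono_set ?_ ?_ (LE.le.eventuallyLE hSt)
  · refine INT.integrableOn_chart (hdens.continuousOn he) (hKc s' le_rfl) hKe fun z hz hzK => ?_
    have := hsup e (e.symm z) ⟨he, e.map_target hz⟩ hzK
    rwa [e.right_inv hz] at this
  · filter_upwards [self_mem_ae_restrict e.open_target.measurableSet] with z hz
    have h4 := hD0 e (e.symm z) ⟨he, e.map_target hz⟩
    rw [e.right_inv hz] at h4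
    exact mul_nonneg (hf _).1 h4

/-- The estimate when the minimum is near `x`. -/
theorem local_bound [T2Space X] [CompactSpace X] [IsManifold 𝓘(ℂ, Cm n) ω X]
    (hχ : IsHermitian χ) (B : ℝ) {α : ℝ} (hα : 0 < α) (K : ℝ) (x : X) :
    ∃ U ∈ 𝓝 x, ∃ C : ℝ, ∀ u : X → ℝ, SmoothFn (n := n) u →
      (∀ e x, At e x → (addH χ u e (e x)).PosDef) →
      (∀ e x, At e x →
        Real.log (addH χ u e (e x)).det.re - Real.log (χ e (e x)).det.re ≤ B) →
      ∀ M : ℝ, INT.intX (fun e z => Real.exp (-(α * (u (e.symm z) - M))) * (χ e z).det.re) ≤ K →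
      ∀ y ∈ U, (∀ y', u y ≤ u y') → M - u y ≤ C := by
  obtain ⟨R, hR, ε, hε, T, hT, d, hd, hb⟩ := exists_consts hχ x
  set e : Chart n X := chartAt (Cm n) x with he
  have hea : e ∈ atlas (Cm n) X := chart_mem_atlas (Cm n) x
  have hxs : x ∈ e.source := mem_chart_source (Cm n) x
  set r : ℝ := R / 4 with hr
  have hr0 : 0 < r := by positivity
  set v₀ : ℝ := (volume (ball (0 : Cm n) (ε * r / (n + 1)))).toReal with hv₀
  have hv₀pos : 0 < v₀ := ENNReal.toReal_pos
    (measure_ball_pos volume _ (by positivity)).ne' measure_ball_lt_top.ne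
  set D : ℝ := Real.exp B * T with hD
  have hD0 : 0 < D := by positivity
  set c₁ : ℝ := v₀ / (4 ^ n * D ^ 2) with hc₁
  have hc₁0 : 0 < c₁ := by positivity
  refine ⟨e.source ∩ e ⁻¹' ball (e x) (R / 2), (e.isOpen_inter_preimage isOpen_ball).mem_nhds
    ⟨hxs, mem_ball_self (by positivity)⟩, ε * r ^ 2 + Real.log (max K 1 / (c₁ * d)) / α,
    fun u hu hpos hlog M hint y hy hmin => ?_⟩
  set p := e y with hp
  have hpb : closedBall p r ⊆ closedBall (e x) (3 * R / 4) := by
    apply closedBall_subset_closedBall'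
    have := hy.2
    rw [mem_preimage, mem_ball] at this
    linarith
  have hpb' : closedBall p r ⊆ ball (e x) R :=
    hpb.trans (closedBall_subset_ball (by linarith))
  have hvp : u (e.symm p) = u y := by rw [hp, e.left_inv hy.1]
  have hsm : ∀ z ∈ closedBall p r, ContDiffAt ℝ 2 (fun z => u (e.symm z)) z := fun z hz =>
    (smooth_at_target hu hea (hb z (hpb' hz)).1).of_le (by norm_cast)
  have hdet : ∀ z ∈ ball p r, (cHess (fun z => u (e.symm z)) z +
      (ε : ℂ) • (1 : Matrix (Fin n) (Fin n) ℂ)).PosSemidef →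
      (cHess (fun z => u (e.symm z)) z +
        (ε : ℂ) • (1 : Matrix (Fin n) (Fin n) ℂ)).det.re ≤ D := by
    intro z hz hA
    have hz' := hb z (hpb' (ball_subset_closedBall hz))
    have hAt : At e (e.symm z) := ⟨hea, e.map_target hz'.1⟩
    have h1 : (addH χ u e z).PosDef := by
      have := hpos e _ hAt
      rwa [e.right_inv hz'.1] at this
    have h2 : Real.log (addH χ u e z).det.re - Real.log (χ e z).det.re ≤ B := by
      have := hlog e _ hAt
      rwa [e.right_inv hz'.1] at this
    have h3 : 0 < (χ e z).det.re := hd.trans_le hz'.2.2.2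
    have h4 : 0 < (addH χ u e z).det.re := (Complex.pos_iff.1 h1.det_pos).1
    have h5 : (addH χ u e z).det.re ≤ D := by
      have h6 : Real.log (addH χ u e z).det.re ≤ B + Real.log (χ e z).det.re := by linarith
      calc (addH χ u e z).det.re = Real.exp (Real.log (addH χ u e z).det.re) :=
            (Real.exp_log h4).symm
        _ ≤ Real.exp (B + Real.log (χ e z).det.re) := Real.exp_le_exp.2 h6
        _ = Real.exp B * (χ e z).det.re := by rw [Real.exp_add, Real.exp_log h3]
        _ ≤ D := mul_le_mul_of_nonneg_left hz'.2.2.1 (Real.exp_pos _).le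
    by_cases h0 : (cHess (fun z => u (e.symm z)) z +
        (ε : ℂ) • (1 : Matrix (Fin n) (Fin n) ℂ)).det = 0
    · rw [h0]; simpa using hD0.le
    · refine le_trans (det_re_le ((hA.posDef_iff_det_ne_zero).2 h0) ?_) h5
      convert hz'.2.1 using 1
      simp only [addH]
      abel
  have habp := abp hr0 hε hsm (fun z hz => by rw [hvp]; exact hmin _) hdet
  rw [hvp] at habp
  set S : Set (Cm n) := {z | z ∈ ball p r ∧ u (e.symm z) < u y + ε * r ^ 2} with hS
  have hSo : IsOpen S := by
    have : S = ball p r ∩ (fun z => u (e.symm z)) ⁻¹' Iio (u y + ε * r ^ 2) := rfl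
    rw [this]
    apply ContinuousOn.isOpen_inter_preimage _ isOpen_ball isOpen_Iio
    exact fun z hz => (hsm z (ball_subset_closedBall hz)).continuousAt.continuousWithinAt
  have hSfin : volume S ≠ ⊤ := ((measure_mono (fun z hz => hz.1)).trans_lt
    (measure_ball_lt_top (μ := volume) (x := p) (r := r))).ne
  have hvol : c₁ ≤ (volume S).toReal := by
    rw [hc₁, div_le_iff₀ (by positivity), hv₀]
    have := ENNReal.toReal_mono (ENNReal.mul_ne_top ENNReal.ofReal_ne_top hSfin) habp
    rw [ENNReal.toReal_mul, ENNReal.toReal_ofReal (by positivity)] at this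
    linarith
  set F : Chart n X → Cm n → ℝ :=
    fun e z => Real.exp (-(α * (u (e.symm z) - M))) * (χ e z).det.re with hF
  have hcont : Continuous u := (SmoothFn.c2Fn hu).continuous
  have hdens : INT.IsDensity F := by
    have h1 : INT.IsDensity (fun (e : Chart n X) z => (χ e z).det.re) :=
      INT.isDensity_det hχ.isForm hχ.smooth
    exact h1.smul (f := fun x => Real.exp (-(α * (u x - M)))) (by fun_prop)
  have hF0 : ∀ e x, At e x → 0 ≤ F e (e x) := fun e x hx =>
    mul_nonneg (Real.exp_pos _).le (Complex.pos_iff.1 (hχ.posDef e x hx).det_pos).1.le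
  have hle := le_intX hdens hF0 hea (s := 3 * R / 4) (s' := 7 * R / 8) (a := e x) (by linarith)
    (fun z hz => (hb z (closedBall_subset_ball (by linarith) hz)).1) hSo.measurableSet
    (fun z hz => hpb (ball_subset_closedBall hz.1))
  have hlow : Real.exp (α * (M - u y - ε * r ^ 2)) * d * (volume S).toReal ≤ ∫ z in S, F e z := by
    have h1 : ∫ _z in S, Real.exp (α * (M - u y - ε * r ^ 2)) * d =
        Real.exp (α * (M - u y - ε * r ^ 2)) * d * (volume S).toReal := by
      rw [setIntegral_const, smul_eq_mul, mul_comm]; rfl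
    rw [← h1]
    refine setIntegral_mono_on (integrableOn_const hSfin) ?_ hSo.measurableSet fun z hz => ?_
    · have h2 : ContinuousOn (F e) (closedBall p r) := fun z hz =>
        ((hdens.continuousOn hea).continuousAt
          (e.open_target.mem_nhds (hb z (hpb' hz)).1)).continuousWithinAt
      exact (h2.integrableOn_compact (isCompact_closedBall _ _)).mono_set
        fun z hz => ball_subset_closedBall hz.1
    · have hz' := hb z (hpb' (ball_subset_closedBall hz.1))
      refine mul_le_mul (Real.exp_le_exp.2 ?_) hz'.2.2.2 hd.le (Real.exp_pos _).le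
      have := mul_le_mul_of_nonneg_left hz.2.le hα.le
      nlinarith
  have hfin : Real.exp (α * (M - u y - ε * r ^ 2)) * (c₁ * d) ≤ max K 1 := by
    have h1 : Real.exp (α * (M - u y - ε * r ^ 2)) * d * c₁ ≤
        Real.exp (α * (M - u y - ε * r ^ 2)) * d * (volume S).toReal :=
      mul_le_mul_of_nonneg_left hvol (by positivity)
    calc Real.exp (α * (M - u y - ε * r ^ 2)) * (c₁ * d)
        = Real.exp (α * (M - u y - ε * r ^ 2)) * d * c₁ := by ring
      _ ≤ K := h1.trans (hlow.trans (hle.trans hint))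
      _ ≤ _ := le_max_left _ _
  rw [← le_div_iff₀ (by positivity)] at hfin
  have h7 : α * (M - u y - ε * r ^ 2) ≤ Real.log (max K 1 / (c₁ * d)) := by
    rw [← Real.log_exp (α * (M - u y - ε * r ^ 2))]
    exact Real.log_le_log (Real.exp_pos _) hfin
  have h8 : M - u y - ε * r ^ 2 ≤ Real.log (max K 1 / (c₁ * d)) / α := by
    rw [le_div_iff₀ hα]; linarith
  linarith

/-- **The uniform oscillation estimate.** -/
theorem c0 {n : ℕ} {X : Type} [TopologicalSpace X] [T2Space X] [CompactSpace X]
    [PreconnectedSpace X] [ChartedSpace (Cm n) X] [IsManifold 𝓘(ℂ, Cm n) ω X] :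
    H835.C0Statement n X := by
  intro χ hχ B
  obtain ⟨α, hα, K, hK⟩ := expInt (LEX.localExp n) χ hχ.toIsHermitian 1 0 (X := X)
  choose U hU C hC using fun x => local_bound (X := X) hχ.toIsHermitian B hα K x
  obtain ⟨t, -, ht⟩ := isCompact_univ.elim_nhds_subcover U fun x _ => hU x
  refine ⟨∑ x ∈ t, |C x|, fun u hu hpos hlog x y => ?_⟩
  have hcont : Continuous u := (SmoothFn.c2Fn hu).continuous
  have hne : (univ : Set X).Nonempty := ⟨x, mem_univ x⟩
  obtain ⟨y₀, -, hy₀⟩ := isCompact_univ.exists_isMinOn hne hcont.continuousOn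
  obtain ⟨y₁, -, hy₁⟩ := isCompact_univ.exists_isMaxOn hne hcont.continuousOn
  obtain ⟨a, hat, hay⟩ := mem_iUnion₂.1 (ht (mem_univ y₀))
  have hΨs : SmoothFn (n := n) (fun x => u x - u y₁) := fun e x hx =>
    (hu e x hx).sub contDiffAt_const
  have hint : INT.intX (fun e z => Real.exp (-(α * (u (e.symm z) - u y₁))) * (χ e z).det.re)
      ≤ K := by
    refine hK (fun x => u x - u y₁) hΨs (fun e x hx => ?_) (fun x => ?_) ⟨y₁, ?_⟩
    · have h1 := (hpos e x hx).posSemidef
      convert h1 using 1
      simp only [addH]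
      rw [cHess_sub ((hu e x hx).of_le (by norm_cast)) contDiffAt_const, N.cHess_const, sub_zero]
      simp
    · have := hy₁ (mem_univ x)
      simpa using this
    · simp
  have h2 := hC a u hu hpos hlog (u y₁) hint y₀ hay fun y' => hy₀ (mem_univ y')
  have h3 : |C a| ≤ ∑ x ∈ t, |C x| :=
    Finset.single_le_sum (f := fun x => |C x|) (fun i _ => abs_nonneg _) hat
  have h4 : u x ≤ u y₁ := hy₁ (mem_univ x)
  have h5 : u y₀ ≤ u y := hy₀ (mem_univ y)
  have h6 := le_abs_self (C a)
  linarith

end Vale.Agent.P299.H937
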