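import Vale.Agent.P299.H937.Twist
import Vale.Agent.P272.K.AMP.Green2

/-!
# P299, A4-BOCH: the Bochner inequality for tensors with values in `-mK`
-/

open scoped Manifold ContDiff ComplexOrder Topology Matrix
open Vale.Agent.P272.K Vale.Agent.P272.K.C2 Vale.Agent.P272.K.AMP Vale.Agent.P299.H954

set_option linter.unusedSectionVars false

noncomputable section

namespace Vale.Agent.P299.H937

variable {n p m : ℕ} {X : Type*} [TopologicalSpace X] [ChartedSpace (Cm n) X]
  {w : D.FormM n X} {φ : Chart n X → Cm n → ℝ} {s : D.Ten n p X} {e : Chart n X} {x : X}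

/-- `|s|²` in the chart `e`, for the metric on `(Ω¹)^{⊗p} ⊗ (-mK)` induced by `w` and `φ` -/
def nTen (w : D.FormM n X) (φ : Chart n X → Cm n → ℝ) (m : ℕ) (s : D.Ten n p X) (e : Chart n X)
    (z : Cm n) : ℝ :=
  Real.exp (m * φ e z) *
    (∑ I, ∑ J, s e z I * (starRingEnd ℂ) (s e z J) * ∏ a, (w e z)⁻¹ (J a) (I a)).re

/-- `|s|²` as a function on `X` -/
def normTen (w : D.FormM n X) (φ : Chart n X → Cm n → ℝ) (m : ℕ) (s : D.Ten n p X) : X → ℝ :=
  atX (nTen w φ m s)

/-- the curvature of `-K` -/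
def thetaM (φ : Chart n X → Cm n → ℝ) : D.FormM n X := fun e z => -cHess (φ e) z

/-- the row of the components -/
def rowT (s : D.Ten n p X) (e : Chart n X) (z : Cm n) : Matrix Unit (Fin p → Fin n) ℂ :=
  Matrix.of fun _ I => s e z I

/-- the metric of `(Ω¹)^{⊗p} ⊗ (-mK)` -/
def metL (p m : ℕ) (w : D.FormM n X) (φ : Chart n X → Cm n → ℝ) (e : Chart n X) (z : Cm n) :
    Matrix (Fin p → Fin n) (Fin p → Fin n) ℂ :=
  ((Real.exp (m * φ e z) : ℝ) : ℂ) • tp p (dual (w e) z)

/-- `|s|²` as a complex number -/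
def sqL (w : D.FormM n X) (φ : Chart n X → Cm n → ℝ) (m : ℕ) (s : D.Ten n p X) (e : Chart n X)
    (z : Cm n) : ℂ := (rowT s e z * metL p m w φ e z * (rowT s e z)ᴴ) () ()

theorem sqL_eq (e : Chart n X) (z : Cm n) : sqL w φ m s e z = ((Real.exp (m * φ e z) : ℝ) : ℂ) *
    ∑ I, ∑ J, s e z I * (starRingEnd ℂ) (s e z J) * ∏ a, (w e z)⁻¹ (J a) (I a) := by
  simp only [sqL, metL, Matrix.mul_smul, Matrix.smul_mul, Matrix.smul_apply, smul_eq_mul]
  congr 1
  simp only [Matrix.mul_apply, rowT, Matrix.of_apply, tp_apply, dual, Matrix.transpose_apply,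
    Matrix.conjTranspose_apply, Finset.sum_mul]
  rw [Finset.sum_comm]
  refine Finset.sum_congr rfl fun I _ => Finset.sum_congr rfl fun J _ => ?_
  show s e z I * _ * (starRingEnd ℂ) (s e z J) = _
  ring

theorem nTen_eq (e : Chart n X) (z : Cm n) : nTen w φ m s e z = (sqL w φ m s e z).re := by
  rw [sqL_eq, Complex.re_ofReal_mul]; rfl

theorem metL_posDef (hw : (w e (e x)).PosDef) : (metL p m w φ e (e x)).PosDef := by
  have h1 : (tp p (dual (w e) (e x))).PosDef := metT_posDef (p := p) hw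
  exact h1.smul (by exact_mod_cast Real.exp_pos _)

theorem sqL_nonneg (hw : (w e (e x)).PosDef) : 0 ≤ sqL w φ m s e (e x) :=
  ((metL_posDef hw).posSemidef.mul_mul_conjTranspose_same _).diag_nonneg

theorem sqL_real (hw : (w e (e x)).PosDef) : sqL w φ m s e (e x) = (nTen w φ m s e (e x) : ℂ) := by
  rw [nTen_eq]
  exact Complex.ext rfl (by simpa using (Complex.le_def.1 (sqL_nonneg (s := s) hw)).2.symm)

theorem nTen_nonneg (hw : (w e (e x)).PosDef) : 0 ≤ nTen w φ m s e (e x) := by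
  rw [nTen_eq]
  exact (Complex.le_def.1 (sqL_nonneg hw)).1

theorem nTen_eq_zero_iff (hw : (w e (e x)).PosDef) :
    nTen w φ m s e (e x) = 0 ↔ ∀ I, s e (e x) I = 0 := by
  constructor
  · intro h
    have h1 : sqL w φ m s e (e x) = 0 := by rw [sqL_real hw, h]; simp
    by_contra hne
    have h2 : star (rowT s e (e x) ()) ≠ 0 := by
      intro h3
      apply hne
      intro I
      have := congrFun h3 I
      simpa [rowT] using this
    have h4 := (metL_posDef (p := p) (m := m) (φ := φ) hw).dotProduct_mulVec_pos h2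
    have h5 : star (star (rowT s e (e x) ())) ⬝ᵥ (metL p m w φ e (e x)).mulVec
        (star (rowT s e (e x) ())) = sqL w φ m s e (e x) := by
      rw [star_star, sqL, Matrix.mul_assoc]
      rfl
    rw [h5, h1] at h4
    exact lt_irrefl _ h4
  · intro h
    unfold nTen
    simp [h]

/-- change of charts -/
theorem sqL_change [IsManifold 𝓘(ℂ, Cm n) ω X] (hw : IsHermitian w) (hφ : IsCanonicalMetric φ)
    (hs : D.IsTen p m s) {e' : Chart n X} (hx : At e x) (hx' : At e' x) :
    sqL w φ m s e (e x) = sqL w φ m s e' (e' x) := by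
  set J := jacM e e' x with hJ
  have hJu : IsUnit J.det := jacM_isUnit hx hx'
  have hw1 := hw.change e e' x hx hx'
  rw [← hJ] at hw1
  have hd : dual (w e) (e x) = J⁻¹ * dual (w e') (e' x) * (J⁻¹)ᴴ := by
    unfold dual
    rw [hw1, inv_form hJu]
    simp only [Matrix.transpose_mul, Matrix.transpose_nonsing_inv, Matrix.transpose_transpose,
      Matrix.mul_assoc]
    congr 3
    rw [Matrix.conjTranspose_nonsing_inv]
    rfl
  have hm : tp p (dual (w e) (e x)) = tp p J⁻¹ * tp p (dual (w e') (e' x)) * (tp p J⁻¹)ᴴ := by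
    rw [hd, tp_mul, tp_mul, tp_conjTranspose]
  have h1 : tp p J * tp p J⁻¹ = 1 := by rw [← tp_mul, Matrix.mul_nonsing_inv _ hJu, tp_one]
  have h2 : (tp p J⁻¹)ᴴ * (tp p J)ᴴ = 1 := by
    rw [← Matrix.conjTranspose_mul, h1, Matrix.conjTranspose_one]
  have hrow : J.det ^ m • rowT s e (e x) = rowT s e' (e' x) * tp p J := by
    ext i I
    have h := hs.change e e' x hx hx' I
    rw [Matrix.smul_apply, smul_eq_mul]
    show J.det ^ m * s e (e x) I = _
    rw [hJ, h, D.tenPull, Matrix.mul_apply]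
    refine Finset.sum_congr rfl fun K _ => ?_
    show _ = s e' (e' x) K * ∏ a, J (K a) (I a)
    rw [mul_comm]
  have hJ0 : J.det ≠ 0 := hJu.ne_zero
  have hexp : ((Real.exp (m * φ e (e x)) : ℝ) : ℂ) =
      ((Real.exp (m * φ e' (e' x)) : ℝ) : ℂ) * (J.det ^ m * (starRingEnd ℂ) (J.det ^ m)) := by
    rw [Complex.mul_conj, ← Complex.ofReal_mul, Complex.normSq_eq_norm_sq]
    congr 1
    rw [hφ.change e e' x hx hx', mul_add, Real.exp_add]
    congr 1
    rw [← hJ, norm_pow, ← pow_mul, mul_comm m 2, pow_mul, mul_comm (m : ℝ),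
      Real.exp_mul, Real.exp_log (by positivity), Real.rpow_natCast]
  have hrow2 : rowT s e (e x) = (J.det ^ m)⁻¹ • (rowT s e' (e' x) * tp p J) := by
    rw [← hrow, smul_smul, inv_mul_cancel₀ (pow_ne_zero m hJ0), one_smul]
  have hc0 : (starRingEnd ℂ) (J.det ^ m) ≠ 0 := by simpa using fun h => absurd h hJ0
  unfold sqL metL
  rw [hrow2, hexp, hm, Matrix.conjTranspose_smul]
  have hstar : star (J.det ^ m)⁻¹ = ((starRingEnd ℂ) (J.det ^ m))⁻¹ := by
    show (starRingEnd ℂ) _ = _
    rw [map_inv₀]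
  rw [hstar]
  simp only [Matrix.smul_mul, Matrix.mul_smul, smul_smul, Matrix.smul_apply, smul_eq_mul,
    Matrix.conjTranspose_mul]
  have e1 : rowT s e' (e' x) * tp p J * (tp p J⁻¹ * tp p (dual (w e') (e' x)) * (tp p J⁻¹)ᴴ) *
      ((tp p J)ᴴ * (rowT s e' (e' x))ᴴ) =
      rowT s e' (e' x) * tp p (dual (w e') (e' x)) * (rowT s e' (e' x))ᴴ := by
    calc _ = rowT s e' (e' x) * (tp p J * tp p J⁻¹) * tp p (dual (w e') (e' x)) *
        ((tp p J⁻¹)ᴴ * (tp p J)ᴴ) * (rowT s e' (e' x))ᴴ := by simp only [Matrix.mul_assoc]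
      _ = _ := by rw [h1, h2]; simp only [Matrix.mul_assoc, Matrix.mul_one]
  rw [e1]
  field_simp

theorem nTen_change [IsManifold 𝓘(ℂ, Cm n) ω X] (hw : IsHermitian w) (hφ : IsCanonicalMetric φ)
    (hs : D.IsTen p m s) {e' : Chart n X} (hx : At e x) (hx' : At e' x) :
    nTen w φ m s e (e x) = nTen w φ m s e' (e' x) := by
  rw [nTen_eq, nTen_eq, sqL_change hw hφ hs hx hx']

theorem normTen_eq [IsManifold 𝓘(ℂ, Cm n) ω X] (hw : IsHermitian w) (hφ : IsCanonicalMetric φ)
    (hs : D.IsTen p m s) (hx : At e x) : normTen w φ m s x = nTen w φ m s e (e x) :=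
  nTen_change hw hφ hs (at_chartAt x) hx

theorem rowT_analytic (hs : D.IsTen p m s) (hx : At e x) (i : Unit) (I : Fin p → Fin n) :
    AnalyticAt ℂ (fun z => rowT s e z i I) (e x) := hs.holo e x hx I

theorem contDiff_exp {r : WithTop ℕ∞} {z : Cm n} (h : ContDiffAt ℝ r (φ e) z) :
    ContDiffAt ℝ r (fun z => Real.exp (m * φ e z)) z :=
  (contDiffAt_const.mul h).exp

theorem MC_metL {r : WithTop ℕ∞} (hw : MC r (w e) (e x)) (h0 : (w e (e x)).det ≠ 0)
    (h : ContDiffAt ℝ r (φ e) (e x)) : MC r (metL p m w φ e) (e x) := by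
  intro I J
  have h1 : MC r (fun y => tp p (dual (w e) y)) (e x) := MC_tp p (MC_dual hw h0)
  exact (Complex.ofRealCLM.contDiff.contDiffAt.comp (e x) (contDiff_exp (m := m) h)).mul (h1 I J)

theorem contDiff_sqL (hw : IsHermitian w) (hφ : IsCanonicalMetric φ) (hs : D.IsTen p m s)
    (hx : At e x) : ContDiffAt ℝ ∞ (sqL w φ m s e) (e x) := by
  have h1 : MC ∞ (rowT s e) (e x) := MC_of_analyticAt (rowT_analytic hs hx)
  have h2 : MC ∞ (metL p m w φ e) (e x) :=
    MC_metL (hw.smooth e x hx) (hw.posDef e x hx).det_pos.ne' (hφ.smooth e x hx)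
  exact ((h1.mul h2).mul h1.conjTranspose) () ()

variable [IsManifold 𝓘(ℂ, Cm n) ω X]

theorem smooth_normTen (hw : IsHermitian w) (hφ : IsCanonicalMetric φ) (hs : D.IsTen p m s) :
    SmoothFn (n := n) (normTen w φ m s) := by
  refine smoothFn_atX (fun e x hx => ?_) fun e e' x hx hx' => nTen_change hw hφ hs hx hx'
  have h1 : nTen w φ m s e = fun z => (sqL w φ m s e z).re := by
    funext z; exact nTen_eq e z
  rw [h1]
  exact Complex.reCLM.contDiff.contDiffAt.comp (e x) (contDiff_sqL hw hφ hs hx)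

theorem normTen_nonneg (hw : IsHermitian w) (x : X) : 0 ≤ normTen w φ m s x :=
  nTen_nonneg (hw.posDef _ x (at_chartAt x))

theorem normTen_eq_zero_iff (hw : IsHermitian w) (hφ : IsCanonicalMetric φ) (hs : D.IsTen p m s)
    (hx : At e x) : normTen w φ m s x = 0 ↔ ∀ I, s e (e x) I = 0 := by
  rw [normTen_eq hw hφ hs hx]
  exact nTen_eq_zero_iff (hw.posDef e x hx)

theorem lapX_chart {u : X → ℝ} (hwH : IsHermitian w) (hus : SmoothFn (n := n) u)
    (hx : At e x) {F : Cm n → ℂ} (hF : ∀ᶠ y in 𝓝 (e x), u (e.symm y) = (F y).re)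
    (hc : ∀ᶠ y in 𝓝 (e x), (starRingEnd ℂ) (F y) = F y) :
    lapX w u x = (∑ l, ∑ k, (w e (e x))⁻¹ l k * dz k (dzb l F) (e x)).re := by
  rw [lapX_eq hwH hus hx, lapE, hess, C2.cHess_congr hF, trace_mul_cHess]
  simp only [cHess_re hc]

/-- `|∇s|²` in the chart `e` -/
def gradT (w : D.FormM n X) (φ : Chart n X → Cm n → ℝ) (m : ℕ) (s : D.Ten n p X) (e : Chart n X)
    (z : Cm n) : ℝ := (∑ l, ∑ k, (w e z)⁻¹ l k * (nab k (rowT s e) (metL p m w φ e) z *
      metL p m w φ e z * (nab l (rowT s e) (metL p m w φ e) z)ᴴ) () ()).re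

theorem trace_theta_nonneg (hw : IsHermitian w)
    (hΘ : ∀ e x, At e x → (thetaM φ e (e x)).PosSemidef) (hx : At e x) :
    0 ≤ trE w (thetaM φ) e (e x) :=
  (Complex.le_def.1 (trace_mul_nonneg (hw.posDef e x hx).inv.posSemidef (hΘ e x hx))).1

/-- the Bochner inequality for `|s|²` -/
theorem lap_normTen (hw : IsKahler w) (hric : D.RicNonneg w) (hφ : IsCanonicalMetric φ)
    (hs : D.IsTen p m s) (hx : At e x) :
    gradT w φ m s e (e x) - m * trE w (thetaM φ) e (e x) * normTen w φ m s x ≤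
      lapX w (normTen w φ m s) x := by
  have hwH := hw.toIsHermitian
  have hwP := hwH.posDef e x hx
  have hus := smooth_normTen hwH hφ hs
  have hS : MC 2 (rowT s e) (e x) := MC_of_analyticAt (rowT_analytic hs hx)
  have hφ2 : ContDiffAt ℝ 2 (φ e) (e x) := (hφ.smooth e x hx).of_le (by norm_cast)
  have hG : MC 2 (w e) (e x) := IsHermitian.MC hwH hx
  have hH : MC 2 (metL p m w φ e) (e x) := MC_metL hG hwP.det_pos.ne' hφ2
  have hHh : ∀ᶠ y in 𝓝 (e x), (metL p m w φ e y).IsHermitian := by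
    filter_upwards [eventually_at hx] with y hy
    have := (metL_posDef (p := p) (m := m) (φ := φ) (hwH.posDef e _ hy.1)).isHermitian
    rwa [hy.2] at this
  have hue : ∀ᶠ y in 𝓝 (e x), normTen w φ m s (e.symm y) = (sqL w φ m s e y).re := by
    filter_upwards [eventually_at hx] with y hy
    have := normTen_eq hwH hφ hs hy.1
    rw [hy.2] at this
    rw [this, nTen_eq]
  have hcj : ∀ᶠ y in 𝓝 (e x), (starRingEnd ℂ) (sqL w φ m s e y) = sqL w φ m s e y := by
    filter_upwards [eventually_at hx] with y hy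
    have := sqL_real (s := s) (m := m) (φ := φ) (hwH.posDef e _ hy.1)
    rw [hy.2] at this
    rw [this, Complex.conj_ofReal]
  rw [lapX_chart hwH hus hx hue hcj]
  have e1 : ∀ k l, dz k (dzb l (sqL w φ m s e)) (e x) =
      (nab k (rowT s e) (metL p m w φ e) (e x) * metL p m w φ e (e x) *
        (nab l (rowT s e) (metL p m w φ e) (e x))ᴴ) () () -
        (rowT s e (e x) * RM k l (metL p m w φ e) (e x) * (rowT s e (e x))ᴴ) () () := by
    intro k l
    have := D2_sandwich (k := k) (l := l) hS hH (holNear_of_analyticAt (rowT_analytic hs hx)) hHh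
      (metL_posDef hwP).det_pos.ne'
    have h2 := congrFun (congrFun this ()) ()
    rw [Matrix.sub_apply] at h2
    exact h2
  have e2 : ∑ l, ∑ k, (w e (e x))⁻¹ l k *
      (rowT s e (e x) * RM k l (metL p m w φ e) (e x) * (rowT s e (e x))ᴴ) () () =
      (rowT s e (e x) * RmS (w e) (metL p m w φ e) (e x) * (rowT s e (e x))ᴴ) () () := by
    rw [RmS]
    simp only [Matrix.mul_sum, Matrix.sum_mul, Matrix.mul_smul, Matrix.smul_mul,
      Matrix.sum_apply, Matrix.smul_apply, smul_eq_mul]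
  have f0 : 0 < Real.exp (m * φ e (e x)) := Real.exp_pos _
  have hT : MC 2 (fun y => tp p (dual (w e) y)) (e x) := MC_tp p (MC_dual hG hwP.det_pos.ne')
  have hTd : (tp p (dual (w e) (e x))).det ≠ 0 := (metT_posDef (p := p) hwP).det_pos.ne'
  have e3 : RmS (w e) (metL p m w φ e) (e x) =
      ((Real.exp (m * φ e (e x)) : ℝ) : ℂ) • RmS (w e) (fun y => tp p (dual (w e) y)) (e x) +
        ((m : ℂ) * ((w e (e x))⁻¹ * thetaM φ e (e x)).trace) • metL p m w φ e (e x) := by
    have h1 := RmS_smul (G := w e) (f := fun z => Real.exp (m * φ e z))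
      (H := fun y => tp p (dual (w e) y)) (contDiff_exp (m := m) hφ2) f0 hT hTd
    have h2 : (fun y => Real.log (Real.exp (m * φ e y))) = fun y => (m : ℝ) * φ e y := by
      funext y; exact Real.log_exp _
    rw [h2, C2.cHess_const_mul (m : ℝ) hφ2] at h1
    have h3 : metL p m w φ e = fun y => ((Real.exp (m * φ e y) : ℝ) : ℂ) • tp p (dual (w e) y) := rfl
    rw [h3, h1, thetaM, Matrix.mul_neg, Matrix.trace_neg, Matrix.mul_smul, Matrix.trace_smul]
    simp only [smul_smul, smul_eq_mul, Complex.ofReal_natCast]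
    rw [sub_eq_add_neg, ← neg_smul]
    congr 2
    ring
  have e4 : (rowT s e (e x) * RmS (w e) (metL p m w φ e) (e x) * (rowT s e (e x))ᴴ) () () =
      -(((Real.exp (m * φ e (e x)) : ℝ) : ℂ) * (rowT s e (e x) *
        (-RmS (w e) (fun y => tp p (dual (w e) y)) (e x)) * (rowT s e (e x))ᴴ) () ()) +
      (m : ℂ) * ((w e (e x))⁻¹ * thetaM φ e (e x)).trace * sqL w φ m s e (e x) := by
    rw [e3, sqL]
    simp only [Matrix.mul_add, Matrix.add_mul, Matrix.mul_smul, Matrix.smul_mul, Matrix.add_apply,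
      Matrix.smul_apply, smul_eq_mul, Matrix.mul_neg, Matrix.neg_mul, Matrix.neg_apply, mul_neg,
      neg_neg]
  have hpos : 0 ≤ ((Real.exp (m * φ e (e x)) : ℝ) : ℂ) * (rowT s e (e x) *
      (-RmS (w e) (fun y => tp p (dual (w e) y)) (e x)) * (rowT s e (e x))ᴴ) () () := by
    refine mul_nonneg (by exact_mod_cast f0.le) ?_
    refine Matrix.PosSemidef.diag_nonneg (Matrix.PosSemidef.mul_mul_conjTranspose_same ?_ _)
    exact neg_RmS_tp p (MC_dual hG hwP.det_pos.ne') (dual_posDef hwP)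
      (posSemidef_of_ric_nonneg hw hric hx)
  have htr : ((w e (e x))⁻¹ * thetaM φ e (e x)).trace =
      ((trE w (thetaM φ) e (e x) : ℝ) : ℂ) := by
    have h1 : (thetaM φ e (e x)).IsHermitian := (C2.cHess_isHermitian hφ2).neg
    have h2 : star ((w e (e x))⁻¹ * thetaM φ e (e x)).trace =
        ((w e (e x))⁻¹ * thetaM φ e (e x)).trace := by
      rw [← Matrix.trace_conjTranspose, Matrix.conjTranspose_mul, h1.eq,
        hwP.inv.isHermitian.eq, Matrix.trace_mul_comm]
    exact (Complex.conj_eq_iff_re.1 h2).symm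
  simp only [e1, mul_sub, Finset.sum_sub_distrib, e2]
  rw [e4, htr, sqL_real hwP, normTen_eq hwH hφ hs hx, Complex.sub_re, Complex.add_re,
    Complex.neg_re]
  have h5 := (Complex.le_def.1 hpos).1
  rw [Complex.zero_re] at h5
  have h6 : ((m : ℂ) * ((trE w (thetaM φ) e (e x) : ℝ) : ℂ) * (nTen w φ m s e (e x) : ℂ)).re =
      m * trE w (thetaM φ) e (e x) * nTen w φ m s e (e x) := by
    rw [show (m : ℂ) * ((trE w (thetaM φ) e (e x) : ℝ) : ℂ) * (nTen w φ m s e (e x) : ℂ) =
      ((m * trE w (thetaM φ) e (e x) * nTen w φ m s e (e x) : ℝ) : ℂ) by push_cast; ring]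
    exact Complex.ofReal_re _
  rw [h6, gradT]
  linarith

theorem smooth_log {u : X → ℝ} (hu : SmoothFn (n := n) u) (h0 : ∀ x, 0 < u x) :
    SmoothFn (n := n) (fun y => Real.log (u y)) := by
  intro e x hx
  refine (hu e x hx).log ?_
  rw [e.left_inv hx.2]
  exact (h0 x).ne'

theorem smooth_log_normTen (hw : IsHermitian w) (hφ : IsCanonicalMetric φ) (hs : D.IsTen p m s)
    {d : ℝ} (hd : 0 < d) : SmoothFn (n := n) (fun y => Real.log (normTen w φ m s y + d)) :=
  smooth_log (sm_add (smooth_normTen hw hφ hs) (smoothFn_const d)) fun x => by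
    have := normTen_nonneg (s := s) (m := m) (φ := φ) hw x
    linarith

/-- **A4-BOCH.** On a Kähler manifold with `Ric ≥ 0`, for a holomorphic section `s` of
`(Ω¹)^{⊗p} ⊗ (-mK)`: `Δ log (|s|² + d) ≥ - m tr Θ` for every `d > 0`, where `Θ` is the curvature of
the metric of `-K`. -/
theorem boch (hw : IsKahler w) (hric : D.RicNonneg w) (hφ : IsCanonicalMetric φ)
    (hΘ : ∀ e x, At e x → (thetaM φ e (e x)).PosSemidef) (hs : D.IsTen p m s) {d : ℝ} (hd : 0 < d)
    (x : X) : -(m * trX w (thetaM φ) x) ≤ lapX w (fun y => Real.log (normTen w φ m s y + d)) x := by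
  set e : Chart n X := chartAt (Cm n) x with he
  have hx : At e x := at_chartAt x
  have hwH := hw.toIsHermitian
  have hwP := hwH.posDef e x hx
  have hus := smooth_normTen hwH hφ hs
  have one := one_ne_zero_inf
  set u : X → ℝ := normTen w φ m s with hu
  have hu0 : 0 ≤ u x := normTen_nonneg hwH x
  have hS : MC 1 (rowT s e) (e x) := MC_of_analyticAt (rowT_analytic hs hx)
  have hφ1 : ContDiffAt ℝ 1 (φ e) (e x) := (hφ.smooth e x hx).of_le (by norm_cast)
  have hG : MC 1 (w e) (e x) := (IsHermitian.MC hwH hx).mono (by norm_num)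
  have hH : MC 1 (metL p m w φ e) (e x) := MC_metL hG hwP.det_pos.ne' hφ1
  have hHh : ∀ᶠ y in 𝓝 (e x), (metL p m w φ e y).IsHermitian := by
    filter_upwards [eventually_at hx] with y hy
    have := (metL_posDef (p := p) (m := m) (φ := φ) (hwH.posDef e _ hy.1)).isHermitian
    rwa [hy.2] at this
  set f : Cm n → ℝ := fun y => u (e.symm y) + d with hf
  have hfx : f (e x) = u x + d := by simp only [hf]; rw [e.left_inv hx.2]
  have hf0 : 0 < f (e x) := by rw [hfx]; linarith
  have hu2 : ContDiffAt ℝ 2 (fun y => u (e.symm y)) (e x) := (hus e x hx).of_le (by norm_cast)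
  have hf2 : ContDiffAt ℝ 2 f (e x) := hu2.add contDiffAt_const
  have hfc : (fun y => ((f y : ℝ) : ℂ)) =ᶠ[𝓝 (e x)] fun y => sqL w φ m s e y + (d : ℂ) := by
    filter_upwards [eventually_at hx] with y hy
    have h1 := normTen_eq hwH hφ hs hy.1
    have h2 := sqL_real (s := s) (m := m) (φ := φ) (hwH.posDef e _ hy.1)
    rw [hy.2] at h1 h2
    show (((u (e.symm y) + d : ℝ)) : ℂ) = _
    rw [Complex.ofReal_add, hu, h1, h2]
  have hsq : DifferentiableAt ℝ (sqL w φ m s e) (e x) :=
    (contDiff_sqL hwH hφ hs hx).differentiableAt (by simp)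
  have hdz : ∀ k, dz k (fun y => ((f y : ℝ) : ℂ)) (e x) =
      (nab k (rowT s e) (metL p m w φ e) (e x) * metL p m w φ e (e x) * (rowT s e (e x))ᴴ) () () := by
    intro k
    rw [dz_congr k hfc, C2.dz_add k hsq (differentiableAt_const _)]
    have h1 := DM_sandwich' (k := k) hS hH ((holNear_of_analyticAt (rowT_analytic hs hx)).self k)
      (metL_posDef hwP).det_pos.ne'
    have h2 := congrFun (congrFun h1 ()) ()
    rw [← h2]
    have h3 : dz k (fun _ : Cm n => (d : ℂ)) (e x) = 0 := by simp [dz]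
    rw [h3, add_zero]
    rfl
  have hdzb : ∀ l, dzb l (fun y => ((f y : ℝ) : ℂ)) (e x) =
      (rowT s e (e x) * metL p m w φ e (e x) * (nab l (rowT s e) (metL p m w φ e) (e x))ᴴ) () () := by
    intro l
    rw [dzb_congr l hfc, C2.dzb_add l hsq (differentiableAt_const _)]
    have h1 := DMb_sandwich' (l := l) hS hH ((holNear_of_analyticAt (rowT_analytic hs hx)).self l)
      hHh (metL_posDef hwP).det_pos.ne'
    have h2 := congrFun (congrFun h1 ()) ()
    rw [← h2]
    have h3 : dzb l (fun _ : Cm n => (d : ℂ)) (e x) = 0 := by simp [dzb]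
    rw [h3, add_zero]
    rfl
  have hcf : cHess f (e x) = cHess (fun y => u (e.symm y)) (e x) := by
    rw [hf, C2.cHess_add hu2 contDiffAt_const, C2.cHess_const, add_zero]
  set T : ℝ := gradT w φ m s e (e x) with hT
  set θ : ℝ := trE w (thetaM φ) e (e x) with hθ
  have hθ0 : 0 ≤ θ := trace_theta_nonneg hwH hΘ hx
  have hcs := cs_step (hwP.inv.posSemidef) (metL_posDef (p := p) (m := m) (φ := φ) hwP).posSemidef
    (fun k => nab k (rowT s e) (metL p m w φ e) (e x)) (rowT s e (e x)) (u := u x) (d := d) hd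
    (by
      have h1 := sqL_real (s := s) (m := m) (φ := φ) hwP
      rw [← normTen_eq hwH hφ hs hx] at h1
      exact h1)
  have hlap := lap_normTen hw hric hφ hs hx
  have hq : lapX w (fun y => Real.log (u y + d)) x = (f (e x))⁻¹ * lapX w u x -
      (f (e x) ^ 2)⁻¹ * (∑ l, ∑ k, (w e (e x))⁻¹ l k *
        ((nab k (rowT s e) (metL p m w φ e) (e x) * metL p m w φ e (e x) * (rowT s e (e x))ᴴ) () () *
        (rowT s e (e x) * metL p m w φ e (e x) *
          (nab l (rowT s e) (metL p m w φ e) (e x))ᴴ) () ())).re := by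
    rw [lapX_eq hwH (smooth_log_normTen hwH hφ hs hd) hx, lapX_eq hwH hus hx]
    unfold lapE hess
    rw [trace_mul_cHess, trace_mul_cHess, ← Complex.re_ofReal_mul, ← Complex.re_ofReal_mul,
      ← Complex.sub_re]
    congr 1
    simp only [Finset.mul_sum, ← Finset.sum_sub_distrib]
    refine Finset.sum_congr rfl fun l _ => Finset.sum_congr rfl fun k _ => ?_
    have h1 := C2.cHess_log hf2 hf0 k l
    rw [hcf, hdz, hdzb] at h1
    show (w e (e x))⁻¹ l k * cHess (fun y => Real.log (f y)) (e x) k l = _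
    rw [h1]
    push_cast
    ring
  rw [hq]
  show -(m * θ) ≤ _
  rw [hfx]
  set g : ℝ := (∑ l, ∑ k, (w e (e x))⁻¹ l k *
        ((nab k (rowT s e) (metL p m w φ e) (e x) * metL p m w φ e (e x) * (rowT s e (e x))ᴴ) () () *
        (rowT s e (e x) * metL p m w φ e (e x) *
          (nab l (rowT s e) (metL p m w φ e) (e x))ᴴ) () ())).re with hg
  have hud : 0 < u x + d := by linarith
  have h1 : ((u x + d) ^ 2)⁻¹ * g ≤ (u x + d)⁻¹ * T := by
    have h2 : ((u x + d) ^ 2)⁻¹ * g ≤ ((u x + d) ^ 2)⁻¹ * ((u x + d) * T) :=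
      mul_le_mul_of_nonneg_left hcs (by positivity)
    have h3 : ((u x + d) ^ 2)⁻¹ * ((u x + d) * T) = (u x + d)⁻¹ * T := by
      field_simp
    rwa [h3] at h2
  have h4 : (u x + d)⁻¹ * (T - m * θ * u x) ≤ (u x + d)⁻¹ * lapX w u x :=
    mul_le_mul_of_nonneg_left hlap (inv_pos.2 hud).le
  have h5 : (u x + d)⁻¹ * u x ≤ 1 := by
    rw [inv_mul_le_iff₀ hud]; linarith
  have h6 : (u x + d)⁻¹ * (m * θ * u x) ≤ m * θ := by
    have : (u x + d)⁻¹ * (m * θ * u x) = ((u x + d)⁻¹ * u x) * (m * θ) := by ring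
    rw [this]
    exact mul_le_of_le_one_left (by positivity) h5
  rw [mul_sub] at h4
  linarith

theorem ric_eq_theta (hdet : ∃ c : ℝ, ∀ e x, At e x →
      Real.log (w e (e x)).det.re = φ e (e x) + c) (hφ : IsCanonicalMetric φ) (hx : At e x) :
    D.ric w e (e x) = thetaM φ e (e x) := by
  obtain ⟨c, hc⟩ := hdet
  have h1 : (fun y => Real.log (w e y).det.re) =ᶠ[𝓝 (e x)] fun y => φ e y + c := by
    filter_upwards [eventually_at hx] with y hy
    have := hc e _ hy.1
    rwa [hy.2] at this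
  rw [D.ric, C2.cHess_congr h1, C2.cHess_add ((hφ.smooth e x hx).of_le (by norm_cast))
    contDiffAt_const, C2.cHess_const, add_zero]
  rfl

/-- the same for a Kähler metric with `log det w = φ + c` -/
theorem boch' (hw : IsKahler w) (hφ : IsCanonicalMetric φ) (hdet : ∃ c : ℝ, ∀ e x, At e x →
      Real.log (w e (e x)).det.re = φ e (e x) + c)
    (hΘ : ∀ e x, At e x → (thetaM φ e (e x)).PosSemidef) (hs : D.IsTen p m s) {d : ℝ} (hd : 0 < d)
    (x : X) : -(m * trX w (thetaM φ) x) ≤ lapX w (fun y => Real.log (normTen w φ m s y + d)) x :=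
  boch hw (fun e x hx => by rw [ric_eq_theta hdet hφ hx]; exact hΘ e x hx) hφ hΘ hs hd x

end Vale.Agent.P299.H937
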