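import Vale.Agent.P299.H937.Det
import Vale.Agent.P272.K.AMP.H470.Loc
import Mathlib.MeasureTheory.Function.Jacobian

/-!
# P299, package D0: the Alexandrov–Bakelman–Pucci argument in a ball

If `v` has a minimum at the center of a ball and `det (cHess v + ε)` is bounded where
`cHess v + ε ≥ 0`, then the set where `v` is close to its minimum is not too small.
-/

open scoped ComplexOrder MatrixOrder ContDiff Topology
open Matrix Complex MeasureTheory Metric Filter Set

noncomputable section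

namespace Vale.Agent.P299.H937

open Vale.Agent.P272.K Vale.Agent.P272.K.N Vale.Agent.P272.K.AMP

variable {n : ℕ}

/-- the real linear form with vector `v` -/
def formOf (v : Cm n) : Cm n →L[ℝ] ℝ :=
  ∑ j, (((v j).re • reCLM + (v j).im • imCLM).comp (ContinuousLinearMap.proj (R := ℝ) j))

theorem formOf_apply (v z : Cm n) :
    formOf v z = ∑ j, ((v j).re * (z j).re + (v j).im * (z j).im) := by
  simp [formOf, _root_.sum_apply]

theorem vecOf_formOf (v : Cm n) : vecOf n (formOf v) = v := by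
  ext j
  rw [vecOf_apply, formOf_apply, formOf_apply]
  rw [Finset.sum_eq_single j (by intro b _ hb; simp [Pi.single_apply, hb]) (by simp),
    Finset.sum_eq_single j (by intro b _ hb; simp [Pi.single_apply, hb]) (by simp)]
  simp

theorem norm_formOf_le (v : Cm n) : ‖formOf v‖ ≤ n * ‖v‖ := by
  refine ContinuousLinearMap.opNorm_le_bound _ (by positivity) fun z => ?_
  rw [formOf_apply, Real.norm_eq_abs]
  have h : ∀ j, |(v j).re * (z j).re + (v j).im * (z j).im| ≤ ‖v‖ * ‖z‖ := by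
    intro j
    have e : (v j).re * (z j).re + (v j).im * (z j).im = (v j * (starRingEnd ℂ) (z j)).re := by
      simp
    rw [e]
    refine (Complex.abs_re_le_norm _).trans ?_
    rw [norm_mul, RCLike.norm_conj]
    exact mul_le_mul (norm_le_pi_norm v j) (norm_le_pi_norm z j) (norm_nonneg _) (norm_nonneg _)
  calc |∑ j, ((v j).re * (z j).re + (v j).im * (z j).im)|
      ≤ ∑ j, |(v j).re * (z j).re + (v j).im * (z j).im| := Finset.abs_sum_le_sum_abs _ _
    _ ≤ ∑ _j : Fin n, ‖v‖ * ‖z‖ := Finset.sum_le_sum fun j _ => h j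
    _ = n * ‖v‖ * ‖z‖ := by simp; ring

theorem sq_ge {p z : Cm n} {r : ℝ} (hr : 0 < r) (hz : ‖z - p‖ = r) : r ^ 2 ≤ sq p z := by
  obtain ⟨j, hj⟩ : ∃ j, r ≤ ‖(z - p) j‖ := by
    by_contra hcon
    push Not at hcon
    have := (pi_norm_lt_iff hr).2 hcon
    exact absurd hz this.ne
  calc r ^ 2 ≤ ‖(z - p) j‖ ^ 2 := pow_le_pow_left₀ hr.le hj 2
    _ = normSq (z j - p j) := by rw [normSq_eq_norm_sq]; rfl
    _ ≤ sq p z := Finset.single_le_sum (f := fun i => normSq (z i - p i))
        (fun i _ => normSq_nonneg _) (Finset.mem_univ j)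

theorem sq_self (p : Cm n) : sq p p = 0 := by simp [Vale.Agent.P272.K.AMP.sq]

/-- every small slope is the derivative at a contact point -/
theorem exists_contact {p : Cm n} {r ε : ℝ} (hr : 0 < r) {v : Cm n → ℝ}
    (hv : ∀ z ∈ closedBall p r, ContDiffAt ℝ 2 v z) (hmin : ∀ z ∈ closedBall p r, v p ≤ v z)
    (hε : 0 < ε) {l : Cm n →L[ℝ] ℝ} (hl : ‖l‖ < ε * r) :
    ∃ z ∈ ball p r, fderiv ℝ (fun z => v z + ε * sq p z) z = l ∧
      (∀ ξ, 0 ≤ fderiv ℝ (fderiv ℝ fun z => v z + ε * sq p z) z ξ ξ) ∧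
      v z + ε * sq p z < v p + ε * r ^ 2 := by
  set w : Cm n → ℝ := fun z => v z + ε * sq p z with hw
  have hsq : ∀ z, ContDiffAt ℝ 2 (fun z => ε * sq p z) z := fun z =>
    contDiffAt_const.mul ((contDiff_sq p).contDiffAt.of_le (by norm_cast))
  have hws : ∀ z ∈ closedBall p r, ContDiffAt ℝ 2 w z := fun z hz => (hv z hz).add (hsq z)
  set g : Cm n → ℝ := fun z => w z - l (z - p) with hg
  have hlin : ∀ z, ContDiffAt ℝ 2 (fun z => l (z - p)) z := fun z =>
    l.contDiff.contDiffAt.comp z (contDiffAt_id.sub contDiffAt_const)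
  have hgs : ∀ z ∈ closedBall p r, ContDiffAt ℝ 2 g z := fun z hz => (hws z hz).sub (hlin z)
  obtain ⟨z, hz, hzmin⟩ := (isCompact_closedBall p r).exists_isMinOn
    ⟨p, mem_closedBall_self hr.le⟩ fun y hy => (hgs y hy).continuousAt.continuousWithinAt
  have hgp : g p = v p := by simp [hg, hw, sq_self]
  have h1 : g z ≤ v p := by
    rw [← hgp]; exact hzmin (mem_closedBall_self hr.le)
  have hlz : |l (z - p)| ≤ ‖l‖ * r := by
    have := l.le_opNorm (z - p)
    rw [Real.norm_eq_abs] at this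
    refine this.trans (mul_le_mul_of_nonneg_left ?_ (norm_nonneg _))
    rw [mem_closedBall, dist_eq_norm] at hz
    exact hz
  have hlr : ‖l‖ * r < ε * r ^ 2 := by
    have := mul_lt_mul_of_pos_right hl hr
    nlinarith
  have hzb : z ∈ ball p r := by
    rw [mem_ball, dist_eq_norm]
    rw [mem_closedBall, dist_eq_norm] at hz
    refine lt_of_le_of_ne hz fun hcon => ?_
    have a1 := sq_ge hr hcon
    have a2 := hmin z (by rw [mem_closedBall, dist_eq_norm]; exact hz)
    have a3 := le_abs_self (l (z - p))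
    have a4 : ε * r ^ 2 ≤ ε * sq p z := mul_le_mul_of_nonneg_left a1 hε.le
    simp only [hg, hw] at h1
    linarith
  have hloc : IsLocalMin g z := hzmin.isLocalMin (mem_of_superset (isOpen_ball.mem_nhds hzb)
    ball_subset_closedBall)
  have hder : ∀ᶠ y in 𝓝 z, fderiv ℝ g y = fderiv ℝ w y - l := by
    filter_upwards [isOpen_ball.mem_nhds hzb] with y hy
    have b1 : HasFDerivAt w (fderiv ℝ w y) y :=
      ((hws y (ball_subset_closedBall hy)).differentiableAt (by simp)).hasFDerivAt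
    have b2 : HasFDerivAt (fun y => l (y - p)) l y := by
      have := l.hasFDerivAt.comp y ((hasFDerivAt_id (𝕜 := ℝ) y).sub_const p)
      simpa [Function.comp_def] using this
    exact (b1.sub b2).fderiv
  have hd2 : DifferentiableAt ℝ (fderiv ℝ w) z :=
    ((hws z hz).fderiv_right (m := 1) (by norm_num)).differentiableAt (by simp)
  have hder2 : fderiv ℝ (fderiv ℝ g) z = fderiv ℝ (fderiv ℝ w) z := by
    rw [Filter.EventuallyEq.fderiv_eq hder]
    exact (hd2.hasFDerivAt.sub_const l).fderiv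
  refine ⟨z, hzb, ?_, ?_, ?_⟩
  · have := hloc.fderiv_eq_zero
    rw [hder.self_of_nhds] at this
    exact sub_eq_zero.1 this
  · intro ξ
    have c1 : ∀ᶠ y in 𝓝 z, DifferentiableAt ℝ (fun y => -g y) y := by
      filter_upwards [isOpen_ball.mem_nhds hzb] with y hy
      exact ((hgs y (ball_subset_closedBall hy)).differentiableAt (by simp)).neg
    have c2 : fderiv ℝ (fun y => -g y) = fun y => -fderiv ℝ g y := by
      funext y; exact fderiv_neg
    have hdg : DifferentiableAt ℝ (fderiv ℝ g) z :=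
      ((hgs z hz).fderiv_right (m := 1) (by norm_num)).differentiableAt (by simp)
    have c3 := second_deriv_nonpos c1 (by rw [c2]; exact hdg.neg) hloc.neg ξ
    have c4 : fderiv ℝ (fun y => -fderiv ℝ g y) z = -fderiv ℝ (fderiv ℝ g) z := fderiv_neg
    rw [c2, c4, hder2] at c3
    simpa using c3
  · have a3 := le_abs_self (l (z - p))
    simp only [hg] at h1
    show w z < _
    linarith

/-- **Alexandrov–Bakelman–Pucci.** -/
theorem abp {p : Cm n} {r ε D : ℝ} (hr : 0 < r) (hε : 0 < ε) {v : Cm n → ℝ}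
    (hv : ∀ z ∈ closedBall p r, ContDiffAt ℝ 2 v z) (hmin : ∀ z ∈ closedBall p r, v p ≤ v z)
    (hdet : ∀ z ∈ ball p r, (cHess v z + (ε : ℂ) • (1 : Matrix (Fin n) (Fin n) ℂ)).PosSemidef →
      (cHess v z + (ε : ℂ) • (1 : Matrix (Fin n) (Fin n) ℂ)).det.re ≤ D) :
    volume (ball (0 : Cm n) (ε * r / (n + 1))) ≤
      ENNReal.ofReal (4 ^ n * D ^ 2) * volume {z | z ∈ ball p r ∧ v z < v p + ε * r ^ 2} := by
  set w : Cm n → ℝ := fun z => v z + ε * sq p z with hw
  have hsq : ∀ z, ContDiffAt ℝ 2 (fun z => ε * sq p z) z := fun z =>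
    contDiffAt_const.mul ((contDiff_sq p).contDiffAt.of_le (by norm_cast))
  have hws : ∀ z ∈ ball p r, ContDiffAt ℝ 2 w z := fun z hz =>
    (hv z (ball_subset_closedBall hz)).add (hsq z)
  have hd2 : ∀ z ∈ ball p r, DifferentiableAt ℝ (fderiv ℝ w) z := fun z hz =>
    ((hws z hz).fderiv_right (m := 1) (by norm_num)).differentiableAt (by simp)
  have hcH : ∀ z ∈ ball p r, cHess w z = cHess v z + (ε : ℂ) • (1 : Matrix (Fin n) (Fin n) ℂ) := by
    intro z hz
    rw [hw, cHess_add (hv z (ball_subset_closedBall hz)) (hsq z),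
      cHess_const_mul ε ((contDiff_sq p).contDiffAt.of_le (by norm_cast)), cHess_sq]
  set A : Set (Cm n) := {z | z ∈ ball p r ∧ w z < v p + ε * r ^ 2 ∧
    ∀ ξ, 0 ≤ fderiv ℝ (fderiv ℝ w) z ξ ξ} with hA
  have hAm : MeasurableSet A := by
    have h1 : IsOpen (ball p r ∩ w ⁻¹' Iio (v p + ε * r ^ 2)) := by
      apply ContinuousOn.isOpen_inter_preimage _ isOpen_ball isOpen_Iio
      exact fun z hz => (hws z hz).continuousAt.continuousWithinAt
    have h2 : ∀ ξ, IsOpen (ball p r ∩ (fun z => fderiv ℝ (fderiv ℝ w) z ξ ξ) ⁻¹' Iio 0) := by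
      intro ξ
      apply ContinuousOn.isOpen_inter_preimage _ isOpen_ball isOpen_Iio
      intro z hz
      have c1 : ContDiffAt ℝ 0 (fderiv ℝ (fderiv ℝ w)) z :=
        ((hws z hz).fderiv_right (m := 1) (by norm_num)).fderiv_right (m := 0) (by norm_num)
      have c2 : ContinuousAt (fun z => fderiv ℝ (fderiv ℝ w) z ξ ξ) z :=
        ((c1.continuousAt.clm_apply continuousAt_const).clm_apply continuousAt_const)
      exact c2.continuousWithinAt
    have h3 : A = (ball p r ∩ w ⁻¹' Iio (v p + ε * r ^ 2)) \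
        ⋃ ξ, (ball p r ∩ (fun z => fderiv ℝ (fderiv ℝ w) z ξ ξ) ⁻¹' Iio 0) := by
      ext z
      simp only [hA, mem_ofPred_eq, Set.mem_sdiff, mem_inter_iff, mem_preimage, mem_Iio, mem_iUnion,
        not_exists, not_and, not_lt]
      constructor
      · rintro ⟨a, b, c⟩
        exact ⟨⟨a, b⟩, fun ξ _ => c ξ⟩
      · rintro ⟨⟨a, b⟩, c⟩
        exact ⟨a, b, fun ξ => c ξ a⟩
    rw [h3]
    exact h1.measurableSet.diff (isOpen_iUnion h2).measurableSet
  set G : Cm n → Cm n := fun z => vecOf n (fderiv ℝ w z) with hG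
  have hGd : ∀ z ∈ A, HasFDerivWithinAt G ((vecOf n).comp (fderiv ℝ (fderiv ℝ w) z)) A z := by
    intro z hz
    exact ((vecOf n).hasFDerivAt.comp z (hd2 z hz.1).hasFDerivAt).hasFDerivWithinAt
  have hsub : ball (0 : Cm n) (ε * r / (n + 1)) ⊆ G '' A := by
    intro y hy
    rw [mem_ball_zero_iff, lt_div_iff₀ (by positivity)] at hy
    have h1 : ‖formOf y‖ < ε * r := by
      refine (norm_formOf_le y).trans_lt ?_
      nlinarith [norm_nonneg y]
    obtain ⟨z, hz, h2, h3, h4⟩ := exists_contact hr hv hmin hε h1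
    refine ⟨z, ⟨hz, h4, h3⟩, ?_⟩
    show vecOf n (fderiv ℝ w z) = y
    rw [h2, vecOf_formOf]
  have hbd : ∀ z ∈ A, |((vecOf n).comp (fderiv ℝ (fderiv ℝ w) z)).det| ≤ 4 ^ n * D ^ 2 := by
    intro z hz
    have hsymm : ∀ ξ η, fderiv ℝ (fderiv ℝ w) z ξ η = fderiv ℝ (fderiv ℝ w) z η ξ :=
      fderiv_fderiv_symm (hws z hz.1)
    obtain ⟨d1, d2⟩ := det_hmat_le hsymm hz.2.2
    rw [det_vecOf, abs_of_nonneg d1]
    refine d2.trans (mul_le_mul_of_nonneg_left ?_ (by positivity))
    have e1 : lev (fderiv ℝ (fderiv ℝ w) z) =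
        cHess v z + (ε : ℂ) • (1 : Matrix (Fin n) (Fin n) ℂ) := by
      rw [← cHess_eq_lev (hd2 z hz.1), hcH z hz.1]
    have e2 := lev_posSemidef hsymm hz.2.2
    have e3 : 0 ≤ (lev (fderiv ℝ (fderiv ℝ w) z)).det.re := (Complex.le_def.1 e2.det_nonneg).1
    rw [e1] at e2 e3 ⊢
    exact pow_le_pow_left₀ e3 (hdet z hz.1 e2) 2
  calc volume (ball (0 : Cm n) (ε * r / (n + 1))) ≤ volume (G '' A) := measure_mono hsub
    _ ≤ ∫⁻ z in A, ENNReal.ofReal |((vecOf n).comp (fderiv ℝ (fderiv ℝ w) z)).det| :=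
        addHaar_image_le_lintegral_abs_det_fderiv volume hAm hGd
    _ ≤ ∫⁻ _z in A, ENNReal.ofReal (4 ^ n * D ^ 2) :=
        setLIntegral_mono' hAm fun z hz => ENNReal.ofReal_le_ofReal (hbd z hz)
    _ = ENNReal.ofReal (4 ^ n * D ^ 2) * volume A := setLIntegral_const _ _
    _ ≤ _ := by
        gcongr
        intro z hz
        refine ⟨hz.1, lt_of_le_of_lt ?_ hz.2.1⟩
        have := mul_nonneg hε.le (normSq_sum_nonneg470 p z)
        simp only [hw]
        linarith

end Vale.Agent.P299.H937
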