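import Vale.Agent.P272.K.N.Phi
import Vale.Agent.P272.K.N.MaxP
import Mathlib.LinearAlgebra.Matrix.SchurComplement
import Mathlib.LinearAlgebra.Complex.Module

/-!
# P299, package D0: the determinant of a real Hessian and of its complex part

For a nonnegative symmetric real bilinear form `B` on `ℂⁿ`, `det B ≤ 4ⁿ (det (lev B))²`, by
Fischer's inequality.
-/

open scoped ComplexOrder MatrixOrder
open Matrix Complex

noncomputable section

namespace Vale.Agent.P299.H937

open Vale.Agent.P272.K Vale.Agent.P272.K.N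

/-- Fischer's inequality. -/
theorem fischer {n : ℕ} {A D M : Matrix (Fin n) (Fin n) ℂ} (h : (fromBlocks A M Mᴴ D).PosDef) :
    (fromBlocks A M Mᴴ D).det.re ≤ A.det.re * D.det.re := by
  have hA : A.PosDef := h.submatrix (e := Sum.inl) Sum.inl_injective
  have hD : D.PosDef := h.submatrix (e := Sum.inr) Sum.inr_injective
  let _ : Invertible A := hA.isUnit.invertible
  have hS : (D - Mᴴ * A⁻¹ * M).PosSemidef := (PosDef.fromBlocks₁₁ M D hA).1 h.posSemidef
  have hdet : (fromBlocks A M Mᴴ D).det = A.det * (D - Mᴴ * A⁻¹ * M).det := by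
    rw [det_fromBlocks₁₁, invOf_eq_nonsing_inv]
  have hS0 : (D - Mᴴ * A⁻¹ * M).det ≠ 0 := by
    intro h0
    have := h.det_pos.ne'
    rw [hdet, h0, mul_zero] at this
    exact this rfl
  have hSp : (D - Mᴴ * A⁻¹ * M).PosDef := (hS.posDef_iff_det_ne_zero).2 hS0
  have hle : (D - Mᴴ * A⁻¹ * M).det.re ≤ D.det.re := by
    refine det_re_le hSp ?_
    have e : D - (D - Mᴴ * A⁻¹ * M) = Mᴴ * A⁻¹ * M := by abel
    rw [e]
    exact hA.inv.posSemidef.conjTranspose_mul_mul_same M
  rw [hdet, det_eq_re hA, det_eq_re hSp, ← Complex.ofReal_mul, Complex.ofReal_re, Complex.ofReal_re]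
  exact mul_le_mul_of_nonneg_left hle (Complex.pos_iff.1 hA.det_pos).1.le

variable {n : ℕ}

/-- the real basis `e_j, i e_j` of `ℂⁿ` -/
def bvec : Fin n ⊕ Fin n → Cm n := Sum.elim (fun j => Pi.single j 1) fun j => Pi.single j I

/-- the matrix of a real bilinear form in the basis `bvec` -/
def hmat (B : Bil n) : Matrix (Fin n ⊕ Fin n) (Fin n ⊕ Fin n) ℝ :=
  Matrix.of fun i k => B (bvec k) (bvec i)

/-- coordinates in the real basis -/
def bco (v : Cm n) : Fin n ⊕ Fin n → ℝ := Sum.elim (fun j => (v j).re) fun j => (v j).im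

theorem sum_bco (v : Cm n) : ∑ i, bco v i • bvec i = v := by
  rw [Fintype.sum_sum_type]
  conv_rhs => rw [decomp v]
  rw [← Finset.sum_add_distrib]
  rfl

/-- the real basis `e_j, i e_j` of `ℂⁿ` -/
def bas (n : ℕ) : Module.Basis (Fin n ⊕ Fin n) ℝ (Cm n) :=
  Module.Basis.ofEquivFun
    { toFun := bco
      map_add' := fun v w => by ext (i | i) <;> simp [bco]
      map_smul' := fun c v => by ext (i | i) <;> simp [bco]
      invFun := fun c => ∑ i, c i • bvec i
      left_inv := fun v => sum_bco v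
      right_inv := fun c => by
        ext (i | i)
        · simp only [bco, Sum.elim_inl, Finset.sum_apply, Fintype.sum_sum_type, bvec,
            Pi.smul_apply, Pi.single_apply, Sum.elim_inr]
          rw [Finset.sum_eq_single i (by intro b _ hb; simp [Ne.symm hb]) (by simp),
            Finset.sum_eq_single i (by intro b _ hb; simp [Ne.symm hb]) (by simp)]
          simp
        · simp only [bco, Sum.elim_inl, Finset.sum_apply, Fintype.sum_sum_type, bvec,
            Pi.smul_apply, Pi.single_apply, Sum.elim_inr]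
          rw [Finset.sum_eq_single i (by intro b _ hb; simp [Ne.symm hb]) (by simp),
            Finset.sum_eq_single i (by intro b _ hb; simp [Ne.symm hb]) (by simp)]
          simp }

theorem bas_apply (i : Fin n ⊕ Fin n) : bas n i = bvec i := by
  simp only [bas, Module.Basis.coe_ofEquivFun]
  show ∑ j, (Pi.single i (1:ℝ) : Fin n ⊕ Fin n → ℝ) j • bvec j = bvec i
  rw [Finset.sum_eq_single i (by intro b _ hb; simp [hb]) (by simp)]
  simp

theorem bas_repr (v : Cm n) (i : Fin n ⊕ Fin n) : (bas n).repr v i = bco v i := by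
  simp [bas]

/-- the vector `(l(e_j) + i l(i e_j))_j` of a real linear form -/
def vecOf (n : ℕ) : (Cm n →L[ℝ] ℝ) →L[ℝ] Cm n :=
  LinearMap.toContinuousLinearMap
    { toFun := fun l j => (l (Pi.single j 1) : ℂ) + (l (Pi.single j I) : ℂ) * I
      map_add' := fun l m => by ext j; simp; ring
      map_smul' := fun c l => by ext j; simp; ring }

theorem vecOf_apply (l : Cm n →L[ℝ] ℝ) (j : Fin n) :
    vecOf n l j = (l (Pi.single j 1) : ℂ) + (l (Pi.single j I) : ℂ) * I := rfl

theorem bco_vecOf (l : Cm n →L[ℝ] ℝ) (i : Fin n ⊕ Fin n) : bco (vecOf n l) i = l (bvec i) := by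
  rcases i with i | i <;> simp [bco, bvec, vecOf_apply]

/-- the determinant of `v ↦ vecOf (B v)` is that of the matrix of `B` -/
theorem det_vecOf (B : Bil n) :
    ((vecOf n).comp B).det = (hmat B).det := by
  have h : LinearMap.toMatrix (bas n) (bas n) ((vecOf n).comp B : Cm n →ₗ[ℝ] Cm n) = hmat B := by
    ext i k
    rw [LinearMap.toMatrix_apply, bas_repr, bas_apply]
    show bco (vecOf n (B (bvec k))) i = _
    rw [bco_vecOf]
    rfl
  rw [← h, LinearMap.det_toMatrix]

/-- the change to complex coordinates -/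
def WW (n : ℕ) : Matrix (Fin n ⊕ Fin n) (Fin n ⊕ Fin n) ℂ :=
  fromBlocks 1 (I • (1 : Matrix (Fin n) (Fin n) ℂ)) 1 (-(I • (1 : Matrix (Fin n) (Fin n) ℂ)))

theorem WW_conj : WW n * (WW n)ᴴ = (2 : ℂ) • 1 := by
  rw [WW, fromBlocks_conjTranspose, fromBlocks_multiply, ← fromBlocks_one, fromBlocks_smul]
  congr 1 <;> ext i j <;> by_cases h : i = j
  all_goals first | (subst h; simp; done) | (subst h; simp; norm_num; done) |
    (simp [Matrix.one_apply_ne h]; done)

/-- the upper right block -/
def mixed (B : Bil n) : Matrix (Fin n) (Fin n) ℂ :=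
  Matrix.of fun i k =>
    ((B (Pi.single k 1) (Pi.single i 1) - B (Pi.single k I) (Pi.single i I) : ℝ) : ℂ) +
      I * ((B (Pi.single k 1) (Pi.single i I) + B (Pi.single k I) (Pi.single i 1) : ℝ) : ℂ)

theorem hmat_eq (B : Bil n) : (hmat B).map ((↑) : ℝ → ℂ) = fromBlocks
    (Matrix.of fun i k => ((B (Pi.single k 1) (Pi.single i 1) : ℝ) : ℂ))
    (Matrix.of fun i k => ((B (Pi.single k I) (Pi.single i 1) : ℝ) : ℂ))
    (Matrix.of fun i k => ((B (Pi.single k 1) (Pi.single i I) : ℝ) : ℂ))
    (Matrix.of fun i k => ((B (Pi.single k I) (Pi.single i I) : ℝ) : ℂ)) := by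
  ext (i | i) (k | k) <;> rfl

theorem WW_hmat {B : Bil n} (hB : ∀ v w, B v w = B w v) :
    WW n * (hmat B).map ((↑) : ℝ → ℂ) * (WW n)ᴴ =
      fromBlocks ((4 : ℂ) • (lev B)ᵀ) (mixed B) (mixed B)ᴴ ((4 : ℂ) • lev B) := by
  rw [hmat_eq, WW, fromBlocks_conjTranspose, fromBlocks_multiply, fromBlocks_multiply]
  congr 1
  · ext i k
    simp only [conjTranspose_one, conjTranspose_neg, conjTranspose_smul, one_mul, mul_one,
      Matrix.smul_mul, Matrix.mul_smul, Matrix.neg_mul, Matrix.mul_neg, Matrix.add_apply,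
      Matrix.smul_apply, Matrix.neg_apply, Matrix.of_apply, smul_eq_mul, transpose_apply,
      lev_apply, star_def, conj_I]
    push_cast
    linear_combination -((B (Pi.single k I) (Pi.single i I) : ℝ) : ℂ) * I_mul_I
  · ext i k
    simp only [conjTranspose_one, conjTranspose_neg, conjTranspose_smul, one_mul, mul_one,
      Matrix.smul_mul, Matrix.mul_smul, Matrix.neg_mul, Matrix.mul_neg, Matrix.add_apply,
      Matrix.smul_apply, Matrix.neg_apply, Matrix.of_apply, smul_eq_mul, transpose_apply,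
      lev_apply, star_def, conj_I, mixed]
    push_cast
    linear_combination ((B (Pi.single k I) (Pi.single i I) : ℝ) : ℂ) * I_mul_I
  · ext i k
    simp only [conjTranspose_one, conjTranspose_neg, conjTranspose_smul, one_mul, mul_one,
      Matrix.smul_mul, Matrix.mul_smul, Matrix.neg_mul, Matrix.mul_neg, Matrix.add_apply,
      Matrix.smul_apply, Matrix.neg_apply, Matrix.of_apply, smul_eq_mul, transpose_apply,
      lev_apply, star_def, conj_I, mixed, conjTranspose_apply, map_add, map_mul, conj_ofReal]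
    rw [hB (Pi.single i 1) (Pi.single k 1), hB (Pi.single i I) (Pi.single k I),
      hB (Pi.single i 1) (Pi.single k I), hB (Pi.single i I) (Pi.single k 1)]
    push_cast
    linear_combination ((B (Pi.single k I) (Pi.single i I) : ℝ) : ℂ) * I_mul_I
  · ext i k
    simp only [conjTranspose_one, conjTranspose_neg, conjTranspose_smul, one_mul, mul_one,
      Matrix.smul_mul, Matrix.mul_smul, Matrix.neg_mul, Matrix.mul_neg, Matrix.add_apply,
      Matrix.smul_apply, Matrix.neg_apply, Matrix.of_apply, smul_eq_mul, transpose_apply,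
      lev_apply, star_def, conj_I]
    rw [hB (Pi.single i 1) (Pi.single k 1), hB (Pi.single i I) (Pi.single k I),
      hB (Pi.single i 1) (Pi.single k I), hB (Pi.single i I) (Pi.single k 1)]
    push_cast
    linear_combination -((B (Pi.single k I) (Pi.single i I) : ℝ) : ℂ) * I_mul_I

theorem hmat_posSemidef {B : Bil n} (hB : ∀ v w, B v w = B w v) (hpos : ∀ v, 0 ≤ B v v) :
    (hmat B).PosSemidef := by
  refine PosSemidef.of_dotProduct_mulVec_nonneg ?_ fun x => ?_
  · refine IsHermitian.ext fun i j => ?_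
    simp [hmat, hB (bvec i) (bvec j)]
  · have : star x ⬝ᵥ (hmat B).mulVec x = B (∑ i, x i • bvec i) (∑ i, x i • bvec i) := by
      simp only [map_sum, _root_.sum_apply, map_smul, _root_.smul_apply, smul_eq_mul, dotProduct,
        Matrix.mulVec, Pi.star_apply, star_trivial, hmat, Matrix.of_apply, Finset.mul_sum]
      exact Finset.sum_congr rfl fun i _ => Finset.sum_congr rfl fun k _ => by ring
    rw [this]
    exact hpos _

/-- A real positive semidefinite matrix is complex positive semidefinite. -/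
theorem posSemidef_map {m : Type*} [Fintype m] [DecidableEq m] {M : Matrix m m ℝ}
    (hM : M.PosSemidef) : (M.map ((↑) : ℝ → ℂ)).PosSemidef := by
  obtain ⟨C, hC⟩ := CStarAlgebra.nonneg_iff_eq_star_mul_self.mp hM.nonneg
  have : M.map ((↑) : ℝ → ℂ) = (C.map ((↑) : ℝ → ℂ))ᴴ * C.map ((↑) : ℝ → ℂ) := by
    rw [hC]
    ext i j
    simp [Matrix.mul_apply, conjTranspose_apply]
  rw [this]
  exact posSemidef_conjTranspose_mul_self _

theorem det_map {m : Type*} [Fintype m] [DecidableEq m] (M : Matrix m m ℝ) :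
    (M.map ((↑) : ℝ → ℂ)).det = ((M.det : ℝ) : ℂ) := by
  have := RingHom.map_det Complex.ofRealHom M
  rw [show ((M.det : ℝ) : ℂ) = Complex.ofRealHom M.det from rfl, this]
  rfl

/-- The determinant of a nonnegative real Hessian is at most `4ⁿ` times the square of the
determinant of its complex part. -/
theorem det_hmat_le {B : Bil n} (hB : ∀ v w, B v w = B w v) (hpos : ∀ v, 0 ≤ B v v) :
    0 ≤ (hmat B).det ∧ (hmat B).det ≤ 4 ^ n * (lev B).det.re ^ 2 := by
  have h0 := hmat_posSemidef hB hpos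
  refine ⟨h0.det_nonneg, ?_⟩
  by_cases hz : (hmat B).det = 0
  · rw [hz]; positivity
  have h1 := posSemidef_map h0
  have hdet : ((hmat B).map ((↑) : ℝ → ℂ)).det ≠ 0 := by
    rw [det_map]; exact_mod_cast hz
  have h2 : ((hmat B).map ((↑) : ℝ → ℂ)).PosDef := (h1.posDef_iff_det_ne_zero).2 hdet
  have hWW : (WW n).det * ((WW n)ᴴ).det = 4 ^ n := by
    rw [← det_mul, WW_conj, det_smul, det_one, mul_one, Fintype.card_sum, Fintype.card_fin,
      ← two_mul, pow_mul]
    norm_num
  have hW : (WW n).det ≠ 0 := by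
    intro h
    rw [h, zero_mul] at hWW
    exact pow_ne_zero n (by norm_num : (4:ℂ) ≠ 0) hWW.symm
  have h3 : (WW n * (hmat B).map ((↑) : ℝ → ℂ) * (WW n)ᴴ).PosDef := by
    refine (PosSemidef.posDef_iff_det_ne_zero (h1.mul_mul_conjTranspose_same _)).2 ?_
    rw [det_mul, det_mul]
    refine mul_ne_zero (mul_ne_zero hW hdet) ?_
    rw [det_conjTranspose]
    simpa using hW
  rw [WW_hmat hB] at h3
  have h4 := fischer h3
  rw [← WW_hmat hB, det_mul, det_mul, mul_right_comm, hWW, det_map, det_smul, det_smul,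
    det_transpose, Fintype.card_fin] at h4
  have e1 : ((4:ℂ) ^ n * ((hmat B).det : ℂ)).re = 4 ^ n * (hmat B).det := by
    rw [show (4:ℂ) ^ n * ((hmat B).det : ℂ) = ((4 ^ n * (hmat B).det : ℝ) : ℂ) by push_cast; rfl]
    exact ofReal_re _
  have e2 : ((4:ℂ) ^ n * (lev B).det).re = 4 ^ n * (lev B).det.re := by
    rw [show (4:ℂ) ^ n = ((4 ^ n : ℝ) : ℂ) by push_cast; rfl, re_ofReal_mul]
  rw [e1, e2] at h4
  have h5 : (0:ℝ) < 4 ^ n := by positivity
  have : 4 ^ n * (hmat B).det ≤ 4 ^ n * (4 ^ n * (lev B).det.re ^ 2) := by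
    calc _ ≤ _ := h4
      _ = _ := by ring
  exact le_of_mul_le_mul_left this h5

end Vale.Agent.P299.H937
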