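import Vale.Agent.P299.H954.TenZero

/-!
# P299, A4-BOCH: curvature of a rescaled metric and the Cauchy–Schwarz step
-/

open scoped Manifold ContDiff ComplexOrder Topology Matrix Kronecker
open Vale.Agent.P272.K Vale.Agent.P272.K.C2 Vale.Agent.P299.H954

set_option linter.unusedSectionVars false

noncomputable section

namespace Vale.Agent.P299.H937

section curv

variable {n : ℕ} {ι : Type*} [Fintype ι] [DecidableEq ι] {z : Cm n} {k l : Fin n}

/-- a function as a `1 × 1` matrix -/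
def scM (f : Cm n → ℝ) (y : Cm n) : Matrix Unit Unit ℂ := Matrix.of fun _ _ => (f y : ℂ)

theorem scM_det (f : Cm n → ℝ) (y : Cm n) : (scM f y).det = (f y : ℂ) := by
  simp [scM]

theorem scM_inv {f : Cm n → ℝ} {y : Cm n} (h : f y ≠ 0) :
    (scM f y)⁻¹ = Matrix.of fun _ _ => ((f y : ℂ))⁻¹ := by
  apply Matrix.inv_eq_right_inv
  ext i j
  have : (f y : ℂ) ≠ 0 := by exact_mod_cast h
  simp [scM, Matrix.mul_apply, this]

theorem MC_scM {r : WithTop ℕ∞} {f : Cm n → ℝ} (hf : ContDiffAt ℝ r f z) : MC r (scM f) z :=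
  fun _ _ => Complex.ofRealCLM.contDiff.contDiffAt.comp z hf

theorem RM_scM {f : Cm n → ℝ} (hf : ContDiffAt ℝ 2 f z) (f0 : 0 < f z) (i j : Unit) :
    RM k l (scM f) z i j = -((f z : ℂ) * cHess (fun y => Real.log (f y)) z k l) := by
  have h0 : (f z : ℂ) ≠ 0 := by exact_mod_cast f0.ne'
  have e1 : D2 k l (scM f) z i j = cHess f z k l := rfl
  have e2 : DM k (scM f) z = Matrix.of fun _ _ => dz k (fun y => (f y : ℂ)) z := rfl
  have e3 : DMb l (scM f) z = Matrix.of fun _ _ => dzb l (fun y => (f y : ℂ)) z := rfl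
  rw [RM, Matrix.add_apply, Matrix.neg_apply, e1, scM_inv f0.ne', e2, e3, cHess_log hf f0]
  simp only [Matrix.mul_apply, Matrix.of_apply, Finset.univ_unique, Finset.sum_singleton]
  field_simp
  ring

theorem RM_smul {f : Cm n → ℝ} {H : Cm n → Matrix ι ι ℂ} (hf : ContDiffAt ℝ 2 f z)
    (f0 : 0 < f z) (hH : MC 2 H z) (d : (H z).det ≠ 0) :
    RM k l (fun y => (f y : ℂ) • H y) z = (f z : ℂ) • RM k l H z -
      ((f z : ℂ) * cHess (fun y => Real.log (f y)) z k l) • H z := by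
  have e : (fun y => (f y : ℂ) • H y) = fun y =>
      (scM f y ⊗ₖ H y).submatrix (Equiv.punitProd ι).symm (Equiv.punitProd ι).symm := by
    ext y i j
    simp [scM, Matrix.kroneckerMap_apply]
  have h0 : (scM f z).det ≠ 0 := by
    rw [scM_det]; exact_mod_cast f0.ne'
  rw [e, RM_submatrix, RM_kronecker (MC_scM hf) hH h0 d]
  ext i j
  simp only [Matrix.submatrix_apply, Matrix.add_apply, Matrix.kroneckerMap_apply,
    Matrix.sub_apply, Matrix.smul_apply, smul_eq_mul, RM_scM hf f0]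
  simp only [scM, Matrix.of_apply]
  simp
  ring

theorem RmS_smul {G : Cm n → Matrix (Fin n) (Fin n) ℂ} {f : Cm n → ℝ} {H : Cm n → Matrix ι ι ℂ}
    (hf : ContDiffAt ℝ 2 f z) (f0 : 0 < f z) (hH : MC 2 H z) (d : (H z).det ≠ 0) :
    RmS G (fun y => (f y : ℂ) • H y) z = (f z : ℂ) • RmS G H z -
      ((f z : ℂ) * ((G z)⁻¹ * cHess (fun y => Real.log (f y)) z).trace) • H z := by
  rw [trace_mul_cHess]
  unfold RmS
  simp only [RM_smul hf f0 hH d]
  ext i j
  simp only [Matrix.sum_apply, Matrix.smul_apply, Matrix.sub_apply, smul_eq_mul, Finset.mul_sum,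
    Finset.sum_mul, ← Finset.sum_sub_distrib]
  exact Finset.sum_congr rfl fun l _ => Finset.sum_congr rfl fun k _ => by ring

end curv

section cs

variable {ι ν : Type*} [Fintype ι] [DecidableEq ι] [Fintype ν] [DecidableEq ν]

/-- **Cauchy–Schwarz**: `|∂u|² ≤ (u + d) |∇s|²` for `u = |s|²`, `d ≥ 0`. -/
theorem cs_step {R : Matrix ν ν ℂ} {H : Matrix ι ι ℂ} (hR : R.PosSemidef) (hH : H.PosSemidef)
    (N : ν → Matrix Unit ι ℂ) (S : Matrix Unit ι ℂ) {u d : ℝ} (hd : 0 < d)
    (hu : ((S * H * Sᴴ) () () : ℂ) = u) :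
    (∑ l, ∑ k, R l k * ((N k * H * Sᴴ) () () * (S * H * (N l)ᴴ) () ())).re ≤
      (u + d) * (∑ l, ∑ k, R l k * (N k * H * (N l)ᴴ) () ()).re := by
  set a : ν → ℂ := fun k => (N k * H * Sᴴ) () () with ha
  have hac : ∀ l, (S * H * (N l)ᴴ) () () = (starRingEnd ℂ) (a l) := by
    intro l
    have h1 : (S * H * (N l)ᴴ) = (N l * H * Sᴴ)ᴴ := by
      simp only [Matrix.conjTranspose_mul, Matrix.conjTranspose_conjTranspose, hH.isHermitian.eq,
        Matrix.mul_assoc]
    rw [h1]; rfl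
  have hu0 : 0 ≤ u := by
    have h1 := (hH.mul_mul_conjTranspose_same S).diag_nonneg (i := ())
    rw [hu] at h1
    exact_mod_cast h1
  set q : ℝ := (u + d)⁻¹ with hq
  have hud : 0 < u + d := by linarith
  have hq0 : 0 < q := inv_pos.2 hud
  set g : ℂ := ∑ l, ∑ k, R l k * (a k * (starRingEnd ℂ) (a l)) with hg
  set T : ℂ := ∑ l, ∑ k, R l k * (N k * H * (N l)ᴴ) () () with hT
  have hg0 : 0 ≤ g := by
    have h1 := hR.dotProduct_mulVec_nonneg a
    have h2 : g = star a ⬝ᵥ (R *ᵥ a) := by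
      simp only [hg, dotProduct, Matrix.mulVec, Pi.star_apply, Finset.mul_sum]
      refine Finset.sum_congr rfl fun l _ => Finset.sum_congr rfl fun k _ => ?_
      show _ = (starRingEnd ℂ) (a l) * (R l k * a k)
      ring
    rw [h2]; exact h1
  have key := sum_trace_nonneg' hR (Matrix.PosSemidef.one : (1 : Matrix Unit Unit ℂ).PosSemidef) hH
    (fun k => N k - ((q : ℂ) * a k) • S)
  have e1 : ∀ l k, ((1 : Matrix Unit Unit ℂ) * (N k - ((q : ℂ) * a k) • S) * H *
      (N l - ((q : ℂ) * a l) • S)ᴴ).trace =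
      (N k * H * (N l)ᴴ) () () - 2 * (q : ℂ) * (a k * (starRingEnd ℂ) (a l)) +
        (q : ℂ) ^ 2 * u * (a k * (starRingEnd ℂ) (a l)) := by
    intro l k
    have e2 : (1 : Matrix Unit Unit ℂ) * (N k - ((q : ℂ) * a k) • S) * H *
      (N l - ((q : ℂ) * a l) • S)ᴴ = N k * H * (N l)ᴴ - ((q : ℂ) * a k) • (S * H * (N l)ᴴ) -
        ((q : ℂ) * (starRingEnd ℂ) (a l)) • (N k * H * Sᴴ) +
        (((q : ℂ) * a k) * ((q : ℂ) * (starRingEnd ℂ) (a l))) • (S * H * Sᴴ) := by
      rw [Matrix.one_mul, Matrix.conjTranspose_sub, Matrix.conjTranspose_smul]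
      have : star ((q : ℂ) * a l) = (q : ℂ) * (starRingEnd ℂ) (a l) := by
        show (starRingEnd ℂ) ((q : ℂ) * a l) = _
        rw [map_mul, Complex.conj_ofReal]
      rw [this]
      simp only [Matrix.sub_mul, Matrix.mul_sub, Matrix.smul_mul, Matrix.mul_smul, smul_sub,
        smul_smul]
      rw [mul_comm ((q : ℂ) * (starRingEnd ℂ) (a l)) ((q : ℂ) * a k)]
      abel
    rw [e2]
    simp only [Matrix.trace, Matrix.diag_apply, Finset.univ_unique, Finset.sum_singleton,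
      Matrix.add_apply, Matrix.sub_apply, Matrix.smul_apply, smul_eq_mul, PUnit.default_eq_unit]
    rw [hac, hu]
    simp only [ha]
    ring
  simp only [e1] at key
  have e3 : ∑ l, ∑ k, R l k * ((N k * H * (N l)ᴴ) () () -
      2 * (q : ℂ) * (a k * (starRingEnd ℂ) (a l)) +
        (q : ℂ) ^ 2 * u * (a k * (starRingEnd ℂ) (a l))) = T - 2 * q * g + q ^ 2 * u * g := by
    simp only [hT, hg, Finset.mul_sum, ← Finset.sum_sub_distrib, ← Finset.sum_add_distrib]
    exact Finset.sum_congr rfl fun l _ => Finset.sum_congr rfl fun k _ => by ring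
  rw [e3] at key
  have hgr : g = (g.re : ℂ) := Complex.ext rfl (by simpa using (Complex.le_def.1 hg0).2.symm)
  have hgre : 0 ≤ g.re := (Complex.le_def.1 hg0).1
  have h4 : 0 ≤ T.re - 2 * q * g.re + q ^ 2 * u * g.re := by
    have h5 := (Complex.le_def.1 key).1
    rw [hgr] at h5
    have e4 : (T - 2 * (q : ℂ) * (g.re : ℂ) + (q : ℂ) ^ 2 * u * (g.re : ℂ)).re =
        T.re - 2 * q * g.re + q ^ 2 * u * g.re := by
      have : T - 2 * (q : ℂ) * (g.re : ℂ) + (q : ℂ) ^ 2 * u * (g.re : ℂ) =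
          T + ((- 2 * q * g.re + q ^ 2 * u * g.re : ℝ) : ℂ) := by
        push_cast; ring
      rw [this, Complex.add_re, Complex.ofReal_re]; ring
    rw [e4] at h5
    simpa using h5
  have h6 : q * u ≤ 1 := by
    rw [hq, inv_mul_le_iff₀ hud]; linarith
  have h7 : q ^ 2 * u * g.re ≤ q * g.re := by
    have : q ^ 2 * u * g.re = (q * u) * (q * g.re) := by ring
    rw [this]
    exact mul_le_of_le_one_left (mul_nonneg hq0.le hgre) h6
  have h8 : q * g.re ≤ T.re := by linarith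
  have h9 : g.re ≤ (u + d) * T.re := by
    have := mul_le_mul_of_nonneg_left h8 hud.le
    rwa [← mul_assoc, hq, mul_inv_cancel₀ hud.ne', one_mul] at this
  have e5 : ∑ l, ∑ k, R l k * ((N k * H * Sᴴ) () () * (S * H * (N l)ᴴ) () ()) = g := by
    simp only [hac, hg, ha]
  rw [e5]
  exact h9

end cs

end Vale.Agent.P299.H937
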